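import Vale.Agent.P331.Bdl.B1
import Vale.Agent.P331.H681.CircC

/-!
# One sample per element: almighty adversary with loss `O(log log rank)`, and with a constant for
matroids with short circuits; ratio `1/4` against exchange-symmetric orders for all matroids; the
matroid secretary theorem with ratio `1/8`
-/

namespace Vale.Agent.Results.P331.AllThreeAndCircuits

open Vale.Agent.P331 Vale.Agent.P331.Osel Vale.Agent.P331.Cir
open scoped ENNReal

/-- For every finite matroid `M` of rank `r`, with one sample per element: (1) a measurable online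
rule which is `1 / (8 ⌈log₂ ⌈log₂ r⌉⌉ + 66)`-competitive against the almighty adversary; (2) if all
circuits of `M` have at most `L ≥ 2` elements, one which is `⌊log₂ L⌋ / (9 L)`-competitive against
the almighty adversary, whatever the rank; (3) one which is `1 / 4`-competitive against every
arrival order that is a measurable function of the seed, the sample and the values and does not
change when `S_e` and `V_e` are exchanged; (4) the matroid secretary problem has ratio `1 / 8`. -/
theorem result {E : Type} [Fintype E] (M : Matroid E) (hM : M.E = Set.univ) :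
    (∃ R : OnlineRule M,
        R.IsCompetitive ((8 * (Nat.clog 2 (Nat.clog 2 M.eRank.toNat) : ℝ≥0∞) + 66)⁻¹)) ∧
      (∀ L : ℕ, 2 ≤ L → (∀ C, M.IsCircuit C → C.encard ≤ L) →
        ∃ R : OnlineRule M, R.IsCompetitive ((Nat.log 2 L : ℝ≥0∞) / (9 * L))) ∧
      (∃ R : OnlineRule M, IsSymCompetitive R (1 / 4)) ∧
        ∃ R : SecretaryRule M, R.IsCompetitive (1 / 8) := by
  refine ⟨⟨theRule hM (Nat.clog 2 (Nat.clog 2 M.eRank.toNat)), theRule_competitive hM _ ?_⟩, ?_,
    ⟨symRule hM, ?_⟩, exists_secretaryRule hM⟩
  · have hfin : M.eRank ≠ ⊤ := by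
      have h1 : M.eRank ≤ M.E.encard := M.eRank_le_encard_ground
      have h2 : M.E.encard < ⊤ := (M.E.toFinite).encard_lt_top
      exact (lt_of_le_of_lt h1 h2).ne
    have h3 : M.eRank.toNat ≤ 2 ^ 2 ^ Nat.clog 2 (Nat.clog 2 M.eRank.toNat) := by
      refine (Nat.le_pow_clog one_lt_two _).trans ?_
      exact Nat.pow_le_pow_right two_pos (Nat.le_pow_clog one_lt_two _)
    calc M.eRank = (M.eRank.toNat : ℕ∞) := (ENat.natCast_toNat hfin).symm
      _ ≤ _ := by exact_mod_cast h3
  · intro L hL hC
    have key : ∀ a b : ℕ, 1 ≤ b → ∃ R : OnlineRule M, R.IsCompetitive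
        (ENNReal.ofReal ((a : ℝ) / (a + b) * (1 - (a : ℝ) / b * (1 + (a : ℝ) / b) ^ (L - 2)))) := by
      intro a b hb
      refine ⟨cirRule hM a (a + b - 1), ?_⟩
      have h1 := cirRule_competitive hM hL hC a (a + b - 1) (by omega)
      have h2 : (((a + b - 1 : ℕ) : ℝ) + 1 - a) = b := by
        have h3 : a + b - 1 + 1 = a + b := by omega
        have h4 : (((a + b - 1 : ℕ) : ℝ) + 1) = (a : ℝ) + b := by exact_mod_cast h3
        rw [h4]
        ring
      rw [h2] at h1
      exact h1
    obtain ⟨R, hR⟩ := key (Nat.log 2 L) (4 * L) (by omega)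
    refine ⟨R, ?_⟩
    intro D hD hfin π hπ
    refine le_trans (mul_le_mul_left ?_ _) (hR D hD hfin π hπ)
    have h1 := rat_ge hL
    have h2 : (Nat.log 2 L : ℝ≥0∞) / (9 * L) = ENNReal.ofReal ((Nat.log 2 L : ℝ) / (9 * L)) := by
      have h3 : (0 : ℝ) < 9 * L := by
        have : (0 : ℝ) < L := by exact_mod_cast (by omega : 0 < L)
        linarith
      rw [ENNReal.ofReal_div_of_pos h3, ENNReal.ofReal_natCast, ENNReal.ofReal_mul (by norm_num),
        ENNReal.ofReal_natCast]
      norm_num
    rw [h2]
    exact ENNReal.ofReal_le_ofReal h1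
  · rw [one_div]
    exact symRule_of_core hM 4⁻¹ (core hM)

end Vale.Agent.Results.P331.AllThreeAndCircuits
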