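import Vale.Agent.P331.H681.CircC

/-!
# One sample per element, almighty adversary: matroids with short circuits
-/

namespace Vale.Agent.Results.P331.ShortCircuits

open Vale.Agent.P331 Vale.Agent.P331.Cir
open scoped ENNReal

/-- Let all circuits of the finite matroid `M` have at most `L` elements, `L ≥ 2`. Then there is a
measurable online rule with one sample per element which is `⌊log₂ L⌋ / (9 L)`-competitive against
the almighty adversary. More precisely, for all `a` and `b ≥ 1` there is a rule with ratio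
`a / (a + b) * (1 - a / b * (1 + a / b) ^ (L - 2))`. -/
theorem result {E : Type} [Fintype E] (M : Matroid E) (hM : M.E = Set.univ) (L : ℕ) (hL : 2 ≤ L)
    (hC : ∀ C, M.IsCircuit C → C.encard ≤ L) :
    (∃ R : OnlineRule M, R.IsCompetitive ((Nat.log 2 L : ℝ≥0∞) / (9 * L))) ∧
      ∀ a b : ℕ, 1 ≤ b → ∃ R : OnlineRule M, R.IsCompetitive
        (ENNReal.ofReal ((a : ℝ) / (a + b) * (1 - (a : ℝ) / b * (1 + (a : ℝ) / b) ^ (L - 2)))) := by
  have key : ∀ a b : ℕ, 1 ≤ b → ∃ R : OnlineRule M, R.IsCompetitive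
        (ENNReal.ofReal ((a : ℝ) / (a + b) * (1 - (a : ℝ) / b * (1 + (a : ℝ) / b) ^ (L - 2)))) := by
    intro a b hb
    refine ⟨cirRule hM a (a + b - 1), ?_⟩
    have h1 := cirRule_competitive hM hL hC a (a + b - 1) (by omega)
    have h2 : (((a + b - 1 : ℕ) : ℝ) + 1 - a) = b := by
      have h3 : a + b - 1 + 1 = a + b := by omega
      have h4 : (((a + b - 1 : ℕ) : ℝ) + 1) = (a : ℝ) + b := by exact_mod_cast h3
      rw [h4]
      ring
    rw [h2] at h1
    exact h1
  refine ⟨?_, key⟩
  obtain ⟨R, hR⟩ := key (Nat.log 2 L) (4 * L) (by omega)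
  refine ⟨R, ?_⟩
  intro D hD hfin π hπ
  refine le_trans (mul_le_mul_left ?_ _) (hR D hD hfin π hπ)
  have h1 := rat_ge hL
  have h2 : (Nat.log 2 L : ℝ≥0∞) / (9 * L) = ENNReal.ofReal ((Nat.log 2 L : ℝ) / (9 * L)) := by
    have h3 : (0 : ℝ) < 9 * L := by
      have : (0 : ℝ) < L := by exact_mod_cast (by omega : 0 < L)
      linarith
    rw [ENNReal.ofReal_div_of_pos h3, ENNReal.ofReal_natCast, ENNReal.ofReal_mul (by norm_num),
      ENNReal.ofReal_natCast]
    norm_num
  rw [h2]
  exact ENNReal.ofReal_le_ofReal h1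

end Vale.Agent.Results.P331.ShortCircuits
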